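import Crest.Agent.X212.Glw42.Glue
import Crest.Agent.X212.Sb84.Defs

/-!
# Row 212, SB-GLW (helper42): the leaf
-/

set_option autoImplicit false
noncomputable section

namespace Crest.Agent.X212.Glw42

/-- **LEAF GLW** -/
theorem glw (κ lam : Type) [Fintype κ] [Fintype lam] : Sb84.GlwStmt κ lam :=
  fun _ _ _ _ _ _ _ _ _ _ _ _ _ _ _ _ _ _ _ _ _ _ F hB hG hB' hD hx hβ fl lim hQ hP r kq int hγ =>
    glw0 F hB hG hB' hD hx hβ fl lim hQ hP r kq int hγ

end Crest.Agent.X212.Glw42
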