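import Crest.Agent.X212.Brk99.Glue
import Crest.Agent.X212.Loc8.Nk2

/-!
# Row 212, SB-GLW (helper42): `Brk99.glue` with weights
-/

set_option autoImplicit false
set_option linter.unusedSectionVars false
noncomputable section
open scoped Manifold ContDiff Topology InnerProductSpace
open MeasureTheory Function Filter Set

namespace Crest.Agent.X212.Glw42
open An M Cyl58 Cyf70 Nd18 Pj41 Tmp64 Brk99
open Abel74 (RedOn)
open Loc8 (Rd)
open Eqv71 (cj cj_cj)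

theorem abs_w {f g b : ℝ} (hf : |f| ≤ 1) (h : |g| ≤ b) : |f * g| ≤ b :=
  (abs_mul f g).trans_le ((mul_le_of_le_one_left (abs_nonneg g) hf).trans h)

theorem int_w {N : Type} [MeasurableSpace N] {μ : Measure N} {T : Set N} {f g : N → ℝ} (hf : Measurable f)
    (h : ∀ z, |f z| ≤ 1) (i : IntegrableOn g T μ) : IntegrableOn (fun z => f z * g z) T μ :=
  Integrable.bdd_mul (c := 1) i hf.aestronglyMeasurable (.of_forall h)

variable {κ lam : Type} [Fintype κ] [Fintype lam]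
  {Z Z' : Mf 4} {ι : Type} [Fintype ι] {Y : ι → Mf 3} [∀ a, CompactSpace (Y a).M]
  {D : ∀ a, YD (Y a).I (Y a).M κ lam} {B : Base Z.M (Option κ) lam} {G : Geo Z.I Z.M (Option κ) lam}
  {B' : Base Z'.M (Option κ) lam} {G' : Geo Z'.I Z'.M (Option κ) lam}
  {K : ∀ a, Bool → Nk (D a) B G} {φ : Z.M → Z'.M} {S : ι → Set Z.M}
  {x : Cfg Z.M (Option κ) lam 0} {β : ∀ a, YC (Y a).M κ lam} {ξ : Z.M → x.m.A}
  {η : ∀ a, (Y a).M → (β a).m.A} {e : ι → Bool → ℝ} {R γ : ℝ} {W : ∀ a, Bool → (cy (β a)).m.Cn}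
  {v : ∀ a b, (Y a).M × ℝ → CL ((K a b).pb x).m.V (cy (β a)).m.V}
  {K' : ∀ a, Nk (D a) B' G'} {l : ι → ℝ}

variable (x B G B' G' φ) in
/-- the weighted energies and levels are close -/
def Cw (y : Cfg Z'.M (Option κ) lam 0) (P : Set Z'.M) (γ : ℝ) : Prop :=
  ∀ f : Z'.M → ℝ, Measurable f → (∀ z, |f z| ≤ 1) →
    |∫ z in P, f z * ‖y.m.Fg G'.F y.W z‖ ^ 2 ∂G'.F.μ -
      ∫ z in φ ⁻¹' P, f (φ z) * ‖x.m.Fg G.F x.W z‖ ^ 2 ∂G.F.μ| ≤ γ ∧
    |∫ z in P, f z * y.m.kd B' G'.F y.W z ∂G'.F.μ -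
      ∫ z in φ ⁻¹' P, f (φ z) * x.m.kd B G.F x.W z ∂G.F.μ| ≤ γ

theorem glw_at [Nonempty Z.M] (F : Fx K φ S) (g : Gm K φ R K' l) (hR : 1 ≤ R) (hB : B.OK Z.I) (hG : G.OK B)
    (hB' : B'.OK Z'.I) (hG' : G'.OK B') (hD : ∀ a, (D a).OK) (hx : x.Adm B G) (hβ : ∀ a, (D a).Adm (β a))
    (fl : ∀ a z, (cy (β a)).m.Fg (D a).Z (cy (β a)).W z = 0)
    (h : ∀ a b, HN (D a) ((K a b).pb x) (β a) (fun z => ξ ((K a b).ψ z)) (η a) (e a b) b R γ (W a b) (v a b))
    {s : Z.M → ℝ} {σ : ι → ℝ} (s1 : ∀ z, s =ᶠ[𝓝 z] fun _ => s z) (s2 : ∀ z, s z * s z = 1)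
    (s3 : ∀ a, σ a * σ a = 1) (s4 : ∀ a b, ∀ z ∈ (K a b).ψ.target, s z * e a b = σ a)
    {Q P : Set Z'.M} (hQ : IsOpen Q) (hP : IsCompact P) (r : RedOn G.F x.m x.W (φ ⁻¹' Q) ξ)
    (int : IntegrableOn (fun z => ‖x.m.Fg G.F x.W z‖ ^ 2) (φ ⁻¹' P) G.F.μ) :
    ∃ y : Cfg Z'.M (Option κ) lam 0, y.Adm B' G' ∧ (∃ ξ', Rd G'.F y.m y.W Q ξ') ∧
      Cw B G B' G' φ x y P (∑ a, Nka63.vY (D a) * (2 * γ ^ 2) +
        ∫ z in φ ⁻¹' P \ O0 K R, ‖x.m.Fg G.F x.W z‖ ^ 2 ∂G.F.μ) := by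
  let Φ := F.oe.pd.toOpenPartialHomeomorph.restrOpen _ (O0_open (K := K) R)
  have es : Φ.source = O0 K R := univ_inter _
  have et : Φ.target = φ '' O0 K R := by rw [← Φ.image_source_eq_target, es]; rfl
  have hχ : LeftInverse Φ.symm φ := leftInverse_invFun F.oe.inj
  have g1 : GRel B G B' G' Φ Φ.source := es ▸ g.rel
  have g2 := gRel_symm g1 hG hG'
  have g3 := fun a => gRel_symm (nk_gRel (K' a)) (hD a).G hG'
  have t : ∀ a, (K' a).tm ⁻¹' Ioo (R - 1) (l a - R + 1) ⊆ (K' a).ψ.target := fun a w hw => by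
    rw [(K' a).tgt, mem_preimage, show Jv _ _ = _ from g.J a]
    exact ⟨by linarith [hw.1], by linarith [hw.2]⟩
  have o := fun a => (isOpen_Ioo (a := R - 1) (b := l a - R + 1)).preimage (K' a).cont
  have a0 : AdmOn (cmC Φ.symm (z0 x)) B' G' Φ.target := g2.admOn_iff.2 ((admOn_univ (c := z0 x).2
    ⟨hx.ok, hx.conn, contMDiff_const, fun _ => map_zero _, .inl rfl⟩).mono (subset_univ _))
  have a1 := fun a => ((g3 a).mono (o a) (t a)).admOn_iff.2
    ((admOn_univ.2 (nC_adm (h a) (g.len a) (hβ a))).mono (subset_univ _))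
  have T := fun a z hz => trans_eq0 g hR hχ h a (z := z) hz
  rw [← et] at T
  have cv : ∀ z, z ∉ Φ.target → ∃ a, (K' a).tm z ∈ Icc R (l a - R) := fun z hz => by
    rw [et, g.cov] at hz; simpa using hz
  have cv' : ∀ {a z}, (K' a).tm z ∈ Icc R (l a - R) → z ∈ (K' a).tm ⁻¹' Ioo (R - 1) (l a - R + 1) :=
    fun k => ⟨by linarith [k.1], by linarith [k.2]⟩
  have dj : Pairwise fun a a' => Disjoint ((K' a).tm ⁻¹' Ioo (R - 1) (l a - R + 1))
    ((K' a').tm ⁻¹' Ioo (R - 1) (l a' - R + 1)) := fun a a' k => (g.dj k).mono (t a) (t a')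
  obtain ⟨y, u0, u, y1, y2, y3, y4⟩ := star (t := fun a w => v a (bb (l a) ((K' a).tm w))
      (ts (l a) (bb (l a) ((K' a).tm w)) ((K' a).ψ.symm w))) hG' Φ.open_target o
    (fun z => (em _).imp_right fun k => (cv z k).imp fun _ => cv') dj a0 a1 fun a => eq0_loc fun z hz =>
      let ⟨_, O, k1, k2, k3, k4, _⟩ := T a z hz
      ⟨O, _, k2, k4, (k1.eventually_mem k2).mono fun w hw => by dsimp only; rw [k3 w hw]⟩
  have ok := fun O => OK.on (I := Z'.I) y1.ok O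
  have sm := fun z a => y1.conn.cc.sm a z
  have cF := Loc8.cont_F2 hB' hG' y1.ok y1.conn
  have iF : IntegrableOn (fun z => ‖y.m.Fg G'.F y.W z‖ ^ 2) P G'.F.μ := cF.continuousOn.integrableOn_compact hP
  have mP := hP.measurableSet
  have mφ : Measurable φ := F.oe.contMDiff.continuous.measurable
  have mP' : MeasurableSet (φ ⁻¹' P) := mφ mP
  have nk : ∫ z in P \ Φ.target, ‖y.m.Fg G'.F y.W z‖ ^ 2 ∂G'.F.μ ≤ ∑ a, Nka63.vY (D a) * (2 * γ ^ 2) := by
    have z0 := fun a s (k : s ∉ (K' a).J) => gw_off (γ := γ) (by linarith) (g.len a) (g.J a ▸ k)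
    have i := fun a => Nka63.integrable_tm (K' a) (gw_int γ R (l a)).1 (z0 a)
    have i' := integrable_finsetSum Finset.univ fun a _ => i a
    refine (setIntegral_mono_on (iF.mono_set sdiff_subset) i'.integrableOn
      (mP.diff Φ.open_target.measurableSet) fun z hz => ?_).trans ((setIntegral_le_integral i'
        (.of_forall fun z => Finset.sum_nonneg fun a _ => gw_nonneg _ _ _ _)).trans_eq ?_)
    · obtain ⟨a, k⟩ := cv z hz.2
      have k' := cv' k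
      rw [Loc66.norm_Fg_loc (y3 a).iso (o a) (a1 a).ok (ok _) (fun b => (a1 a).conn.sm b z k') (sm z)
        (y3 a).par k', Fg_cm (g3 a).fr (t a k')]
      refine ((nC_Fg (h a) (g.len a) (fl a) (by rwa [(K' a).snd_symm (t a k')])).trans_eq
        (by rw [(K' a).snd_symm (t a k')])).trans (Finset.single_le_sum
          (f := fun a => gw γ R (l a) ((K' a).tm z)) (fun a _ => gw_nonneg _ _ _ _) (Finset.mem_univ a))
    · rw [integral_finsetSum _ fun a _ => i a]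
      exact Finset.sum_congr rfl fun a _ => by
        rw [Nka63.integral_tm (K' a) (z0 a), (gw_int γ R (l a)).2, smul_eq_mul]
  have is := g1.fr.iso hG.vol hG'.vol
  have kd : ∀ {N : Mf 4} {B : Base N.M (Option κ) lam} {G : Geo N.I N.M (Option κ) lam}
      {c : Cfg N.M (Option κ) lam 0} {P : Set N.M}, B.OK N.I → G.OK B → c.Adm B G →
      IntegrableOn (fun z => ‖c.m.Fg G.F c.W z‖ ^ 2) P G.F.μ → IntegrableOn (c.m.kd B G.F c.W) P G.F.μ :=
    fun hB hG hc i => i.mono' (Loc66.sm_kd hB hG hc.ok hc.conn).continuous.aestronglyMeasurable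
      (.of_forall (abs_kd hB hG hc.conn))
  refine ⟨y, y1, rd_patch (J := Option ι) (U := fun i => i.elim (Φ.target ∩ Q) fun a =>
      (K' a).tm ⁻¹' Ioo (R - 1) (l a - R + 1)) (f := fun i => i.elim
      (fun z => cj (u0 z) (s (Φ.symm z) • ξ (Φ.symm z))) fun a z => cj (u a z) (σ a • η a ((K' a).ψ.symm z).1))
      ?_ ?_ ?_ hQ fun z hz => (em _).elim (fun k => ⟨none, k, hz⟩) fun k => let ⟨a, k⟩ := cv z k; ⟨some a, cv' k⟩,
    fun f fm f1 => ⟨(int_close is mP' mP (fun _ _ => .rfl) (fun z hz => congrArg (f (φ z) * ·) ?_)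
      (int_w (fm.comp mφ) (fun _ => f1 _) int) (int_w fm f1 iF) int iF (fun _ => abs_w (f1 _) (abs_sq _).le)
      fun _ => abs_w (f1 _) (abs_sq _).le).trans (add_le_add nk (by rw [es])),
    (int_close is mP' mP (fun _ _ => .rfl) (fun z hz => congrArg (f (φ z) * ·) ?_)
      (int_w (fm.comp mφ) (fun _ => f1 _) (kd hB hG hx int)) (int_w fm f1 (kd hB' hG' y1 iF)) int iF
      (fun z => abs_w (f1 _) (abs_kd hB hG hx.conn z)) fun z => abs_w (f1 _) (abs_kd hB' hG' y1.conn z)).trans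
      (add_le_add nk (by rw [es]))⟩⟩
  · rintro (_ | a)
    exacts [Φ.open_target.inter hQ, o a]
  · rintro (_ | a)
    · exact red_iso (red_cm (g2.fr.mono (Φ.open_target.inter hQ) inter_subset_left)
        (fun z hz => show Φ (Φ.symm z) ∈ Q by rw [Φ.right_inv hz.1]; exact hz.2) (red_smul r s1 s2))
        (y2.iso.mono inter_subset_left) (a0.ok.mono inter_subset_left) (ok _)
        (fun b z _ => hx.conn.sk b _) (fun b z _ => y1.conn.sk b z) (y2.par.mono inter_subset_left)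
    · exact red_iso (red_cm ((g3 a).fr.mono (o a) (t a)) (mapsTo_univ _ _)
        (red_sm (nC_red (h a) (g.len a)) (s3 a))) (y3 a).iso (a1 a).ok (ok _) (a1 a).conn.sk
        (fun b z _ => y1.conn.sk b z) (y3 a).par
  · have key : ∀ a, ∀ z ∈ Φ.target ∩ (K' a).tm ⁻¹' Ioo (R - 1) (l a - R + 1),
        cj (u0 z) (s (Φ.symm z) • ξ (Φ.symm z)) = cj (u a z) (σ a • η a ((K' a).ψ.symm z).1) := fun a z hz => by
      obtain ⟨b, O, -, k5, k6, -, k1, k2⟩ := T a z hz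
      have k3 := (h a _).cj _ k1
      have k4 := s4 a b _ ((K a b).ψ.map_source ((F.src a b).ge (lt_of_le_of_lt (sub_nonneg.2 hR) k1.1)))
      rw [k2] at k3 k4
      have k7 := y4 a z hz
      rw [k6 z k5] at k7
      rw [← k7, ← k4]
      exact (cj_cj _ _ _).symm.trans (congrArg _ ((map_smul _ _ _).trans
        ((congrArg _ k3).trans (smul_smul _ _ _))))
    rintro (_ | a) (_ | a') z h1 h2
    · rfl
    · exact key a' z ⟨h1.1, h2⟩
    · exact (key a z ⟨h2.1, h1⟩).symm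
    · obtain rfl : a = a' := by_contra fun k => disjoint_left.1 (dj k) h1 h2
      rfl
  · have k := Φ.map_source hz
    change ‖y.m.Fg G'.F y.W (Φ z)‖ ^ 2 = _
    rw [Loc66.norm_Fg_loc y2.iso Φ.open_target a0.ok (ok _) (fun b => a0.conn.sm b _ k) (sm _) y2.par k,
      Fg_cm g2.fr k, Φ.left_inv hz]
  · have k := Φ.map_source hz
    change y.m.kd B' G'.F y.W (Φ z) = _
    rw [Loc66.kd_loc y2.iso Φ.open_target a0.ok (ok _) (fun b => a0.conn.sm b _ k) (sm _) y2.par k,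
      kd_cm g2 k, Φ.left_inv hz]

/-- **GLUE with weights** -/
theorem glw0 [∀ a, ConnectedSpace (Y a).M] [Nonempty Z.M] (F : Fx K φ S)
    (hB : B.OK Z.I) (hG : G.OK B) (hB' : B'.OK Z'.I) (hD : ∀ a, (D a).OK) (hx : x.Adm B G)
    (hβ : ∀ a, (D a).Adm (β a)) (fl : ∀ a z, (cy (β a)).m.Fg (D a).Z (cy (β a)).W z = 0)
    {ζ : ι → Bool → Circle} (lim : ∀ a b, (K a b).Lim x (β a) (ζ a b) (bif b then atBot else atTop))
    {Q P : Set Z'.M} (hQ : IsOpen Q) (hP : IsCompact P) (r : RedOn G.F x.m x.W (φ ⁻¹' Q) ξ)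
    (kq : ∀ a b, (K a b).ψ.target ⊆ φ ⁻¹' Q)
    (int : IntegrableOn (fun z => ‖x.m.Fg G.F x.W z‖ ^ 2) (φ ⁻¹' P) G.F.μ) (hγ : 0 < γ) :
    ∃ R > 0, ∀ (G' : Geo Z'.I Z'.M (Option κ) lam) (K' : ∀ a, Nk (D a) B' G') (l : ι → ℝ), G'.OK B' →
      Gm K φ R K' l → ∃ y : Cfg Z'.M (Option κ) lam 0, y.Adm B' G' ∧ (∃ ξ', Rd G'.F y.m y.W Q ξ') ∧
      Cw B G B' G' φ x y P γ := by
  have N := fun a b => Loc8.neck (Y a) (D a) ((K a b).pb x) (β a) (ζ a b) b (fun z => ξ ((K a b).ψ z)) (hD a) (hβ a)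
    (fl a) (F.src a b ▸ (nk_gRel (K a b)).admOn_iff.2 ((admOn_univ.2 hx).mono (subset_univ _)))
    (F.src a b ▸ red_cm (K a b).rel (fun z hz => kq a b ((K a b).ψ.map_source hz)) r)
    (let ⟨u, h⟩ := lim a b; ⟨u, fun k η hη => let ⟨S, h1, _, h2⟩ := h k η hη
      ⟨S, h1, fun _ _ => by simp [YD.nk, Jv], h2⟩⟩)
  choose η hη using fun a => (N a false).1
  choose e e1 e2 using fun a b => (N a b).2 (η a) (hη a)
  obtain ⟨s, σ, s1, s2, s3, s4⟩ := F.sign (e := e) fun a b => by rcases e1 a b with k | k <;> simp [k]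
  obtain ⟨δ, d1, d0⟩ := (((ContinuousAt.eventually_lt
    (f := fun δ : ℝ => ∑ a, Nka63.vY (D a) * (2 * δ ^ 2)) (g := fun _ => γ / 2) (x₀ := 0) (by fun_prop)
    continuousAt_const (by simpa using hγ)).filter_mono nhdsWithin_le_nhds).and
      (self_mem_nhdsWithin (s := Ioi 0))).exists
  obtain ⟨R, ⟨r1, r2⟩, r3⟩ := ((((eventually_ge_atTop 1).and ((O0_tail (K := K)
    (F.oe.contMDiff.continuous.measurable hP.measurableSet) int).eventually
      (eventually_lt_nhds (half_pos hγ)))).filter_mono (Ultrafilter.of_le atTop)).and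
    (eventually_all.2 fun a => eventually_all.2 fun b => e2 a b δ d0)).exists
  choose W v h using r3
  refine ⟨R, by linarith, fun G' K' l hG' g => ?_⟩
  obtain ⟨y, y1, y2, y3⟩ := glw_at F g r1 hB hG hB' hG' hD hx hβ fl h s1 s2 s3 s4 hQ hP r int
  exact ⟨y, y1, y2, fun f fm f1 => (y3 f fm f1).imp (by intro; linarith) (by intro; linarith)⟩

end Crest.Agent.X212.Glw42
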